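import Mathlib

/-!
# Abstract parity obstruction to Monge solutions (for S0175)

`μ` is a finite measure on `E`, `A`, `B` are measurable sets carrying `μ`, and `bp`, `bm` are two
measurable maps, injective on `A`, with `μ|_B = 2 • bp#(μ|_A) = 2 • bm#(μ|_A)`.
If a measure-preserving map `T` sends (a.e.) `A` outside `A` and, for a.e. `x ∈ B` with `T x ∈ A`,
`x ∈ {bp (T x), bm (T x)}`, then `μ A = 0`: the mass arriving at `A` from `B` comes in quanta of
twice the `A`-density.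
-/

set_option autoImplicit false
open MeasureTheory
open scoped ENNReal

namespace Crest.Agent.Helper91.OT3

section Parity

variable {E : Type*} [MeasurableSpace E] [MeasurableEq E]

/-- The set of points `x ∈ B` whose image under `T` lies in `A` and is a `b`-preimage of `x`. -/
def hitSet (A B : Set E) (b T : E → E) : Set E :=
  B ∩ (T ⁻¹' A ∩ {x | x = b (T x)})

omit [MeasurableSpace E] [MeasurableEq E] in
lemma hitSet_subset (A B : Set E) (b T : E → E) : hitSet A B b T ⊆ B := Set.inter_subset_left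

lemma measurableSet_hitSet {A B : Set E} (hA : MeasurableSet A) (hB : MeasurableSet B)
    {b T : E → E} (hb : Measurable b) (hT : Measurable T) : MeasurableSet (hitSet A B b T) :=
  hB.inter ((hT hA).inter (measurableSet_eq_fun measurable_id (hb.comp hT)))

/-- Key counting identity: the `μ`-mass of the part of `T ⁻¹' S` inside the hit set of `b` is
twice the mass of `S ∩ A ∩ b ⁻¹' (hit set)`. -/
lemma measure_preimage_inter_hitSet (μ : Measure E) {A B : Set E} (hA : MeasurableSet A)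
    (hB : MeasurableSet B) {b T : E → E} (hb : Measurable b) (hT : Measurable T)
    (hi : Set.InjOn b A) (hBb : μ.restrict B = (2 : ℝ≥0∞) • (μ.restrict A).map b)
    {S : Set E} (hS : MeasurableSet S) :
    μ (T ⁻¹' S ∩ hitSet A B b T) = 2 * μ (S ∩ (A ∩ b ⁻¹' hitSet A B b T)) := by
  have hE : MeasurableSet (hitSet A B b T) := measurableSet_hitSet hA hB hb hT
  have hm : MeasurableSet (T ⁻¹' S ∩ hitSet A B b T) := (hT hS).inter hE
  have h1 : μ (T ⁻¹' S ∩ hitSet A B b T) = μ.restrict B (T ⁻¹' S ∩ hitSet A B b T) := by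
    rw [Measure.restrict_apply hm]
    congr 1
    ext x
    constructor
    · rintro ⟨h1, h2⟩
      exact ⟨⟨h1, h2⟩, hitSet_subset A B b T h2⟩
    · rintro ⟨h, -⟩
      exact h
  rw [h1, hBb, Measure.smul_apply, Measure.map_apply hb hm, Measure.restrict_apply (hb hm),
    smul_eq_mul]
  congr 2
  ext u
  constructor
  · rintro ⟨⟨hTS, huE⟩, huA⟩
    have huE' := huE
    obtain ⟨-, hTA, heq⟩ := huE
    have hu : u = T (b u) := hi huA hTA heq
    refine ⟨?_, huA, huE'⟩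
    have hTS' : T (b u) ∈ S := hTS
    rw [← hu] at hTS'
    exact hTS'
  · rintro ⟨huS, huA, huE⟩
    have huE' := huE
    obtain ⟨-, hTA, heq⟩ := huE
    have hu : u = T (b u) := hi huA hTA heq
    refine ⟨⟨?_, huE'⟩, huA⟩
    show T (b u) ∈ S
    rw [← hu]
    exact huS

/-- **Abstract parity theorem.** -/
theorem parity_no_monge (μ : Measure E) [IsFiniteMeasure μ] (A B : Set E)
    (hA : MeasurableSet A) (hB : MeasurableSet B) (hcov : μ (A ∪ B)ᶜ = 0)
    (bp bm : E → E) (hbp : Measurable bp) (hbm : Measurable bm)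
    (hip : Set.InjOn bp A) (him : Set.InjOn bm A)
    (hBp : μ.restrict B = (2 : ℝ≥0∞) • (μ.restrict A).map bp)
    (hBm : μ.restrict B = (2 : ℝ≥0∞) • (μ.restrict A).map bm)
    (T : E → E) (hT : Measurable T) (hTμ : μ.map T = μ)
    (hTA : ∀ᵐ x ∂μ, x ∈ A → T x ∉ A)
    (hTB : ∀ᵐ x ∂μ, x ∈ B → T x ∈ A → (x = bp (T x) ∨ x = bm (T x))) :
    μ A = 0 := by
  set Ep := hitSet A B bp T with hEp
  set Em := hitSet A B bm T with hEm
  set Fp := A ∩ bp ⁻¹' Ep with hFp
  set Fm := A ∩ bm ⁻¹' Em with hFm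
  have hEpm : MeasurableSet Ep := measurableSet_hitSet hA hB hbp hT
  have hEmm : MeasurableSet Em := measurableSet_hitSet hA hB hbm hT
  have hFpm : MeasurableSet Fp := hA.inter (hbp hEpm)
  have hFmm : MeasurableSet Fm := hA.inter (hbm hEmm)
  have hpre : ∀ S : Set E, MeasurableSet S → μ (T ⁻¹' S) = μ S := by
    intro S hS
    rw [← Measure.map_apply hT hS, hTμ]
  -- `Fp` and `Fm` are null
  have hnull : ∀ (b : E → E), Measurable b → Set.InjOn b A →
      μ.restrict B = (2 : ℝ≥0∞) • (μ.restrict A).map b →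
      μ (A ∩ b ⁻¹' hitSet A B b T) = 0 := by
    intro b hb hi hBb
    set F := A ∩ b ⁻¹' hitSet A B b T with hF
    have hFm' : MeasurableSet F := hA.inter (hb (measurableSet_hitSet hA hB hb hT))
    have hle : 2 * μ F ≤ μ F := by
      calc 2 * μ F = 2 * μ (F ∩ (A ∩ b ⁻¹' hitSet A B b T)) := by rw [← hF, Set.inter_self]
        _ = μ (T ⁻¹' F ∩ hitSet A B b T) :=
            (measure_preimage_inter_hitSet μ hA hB hb hT hi hBb hFm').symm
        _ ≤ μ (T ⁻¹' F) := measure_mono Set.inter_subset_left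
        _ = μ F := hpre F hFm'
    by_contra hne
    have hfin : μ F ≠ ⊤ := measure_ne_top μ F
    have h2 : μ F + μ F ≤ μ F := by rwa [two_mul] at hle
    have h3 : μ F + μ F ≤ μ F + 0 := by simpa using h2
    have h4 : μ F ≤ 0 := (ENNReal.add_le_add_iff_left hfin).1 h3
    exact hne (le_antisymm h4 (zero_le))
  have hFp0 : μ Fp = 0 := hnull bp hbp hip hBp
  have hFm0 : μ Fm = 0 := hnull bm hbm him hBm
  -- a.e. point of `T ⁻¹' A` is in `Ep ∪ Em`
  have hcov' : ∀ᵐ x ∂μ, x ∈ A ∪ B := by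
    rw [ae_iff]
    exact hcov
  have hsub : ∀ᵐ x ∂μ, x ∈ T ⁻¹' A → x ∈ (T ⁻¹' A ∩ Ep) ∪ (T ⁻¹' A ∩ Em) := by
    filter_upwards [hcov', hTA, hTB] with x hx hxA hxB hTx
    have hxB' : x ∈ B := by
      rcases hx with h | h
      · exact absurd hTx (hxA h)
      · exact h
    rcases hxB hxB' hTx with h | h
    · exact Or.inl ⟨hTx, hxB', hTx, h⟩
    · exact Or.inr ⟨hTx, hxB', hTx, h⟩
  have hle : μ (T ⁻¹' A) ≤ μ ((T ⁻¹' A ∩ Ep) ∪ (T ⁻¹' A ∩ Em)) := by
    apply measure_mono_ae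
    exact hsub
  have hp : μ (T ⁻¹' A ∩ Ep) = 2 * μ (A ∩ Fp) :=
    measure_preimage_inter_hitSet μ hA hB hbp hT hip hBp hA
  have hm : μ (T ⁻¹' A ∩ Em) = 2 * μ (A ∩ Fm) :=
    measure_preimage_inter_hitSet μ hA hB hbm hT him hBm hA
  have hp0 : μ (T ⁻¹' A ∩ Ep) = 0 := by
    rw [hp]
    have : μ (A ∩ Fp) = 0 := measure_mono_null Set.inter_subset_right hFp0
    rw [this, mul_zero]
  have hm0 : μ (T ⁻¹' A ∩ Em) = 0 := by
    rw [hm]
    have : μ (A ∩ Fm) = 0 := measure_mono_null Set.inter_subset_right hFm0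
    rw [this, mul_zero]
  have h0 : μ (T ⁻¹' A) = 0 := by
    apply le_antisymm _ (zero_le)
    calc μ (T ⁻¹' A) ≤ μ ((T ⁻¹' A ∩ Ep) ∪ (T ⁻¹' A ∩ Em)) := hle
      _ ≤ μ (T ⁻¹' A ∩ Ep) + μ (T ⁻¹' A ∩ Em) := measure_union_le _ _
      _ = 0 := by rw [hp0, hm0, add_zero]
  rw [← hpre A hA]
  exact h0

/-- Shape of the equality set of the pointwise inequality: exactly one coordinate `a` of the
triple lies in `A`, and the two others are `bp a` and `bm a` (in some order). -/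
def IsApexTriple (A : Set E) (bp bm : E → E) (p : E × E × E) : Prop :=
  (p.1 ∈ A ∧ p.2.1 ∉ A ∧ p.2.2 ∉ A ∧
      ((p.2.1 = bp p.1 ∧ p.2.2 = bm p.1) ∨ (p.2.1 = bm p.1 ∧ p.2.2 = bp p.1))) ∨
  (p.2.1 ∈ A ∧ p.1 ∉ A ∧ p.2.2 ∉ A ∧
      ((p.1 = bp p.2.1 ∧ p.2.2 = bm p.2.1) ∨ (p.1 = bm p.2.1 ∧ p.2.2 = bp p.2.1))) ∨
  (p.2.2 ∈ A ∧ p.1 ∉ A ∧ p.2.1 ∉ A ∧
      ((p.1 = bp p.2.2 ∧ p.2.1 = bm p.2.2) ∨ (p.1 = bm p.2.2 ∧ p.2.1 = bp p.2.2)))

/-- **Parity theorem, triple form (second coordinate).** If the Monge plan `x ↦ (x, T₂ x, T₃ x)`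
is `μ`-a.e. supported on apex triples and `T₂` preserves `μ`, then `μ A = 0`. -/
theorem parity_no_monge_triple (μ : Measure E) [IsFiniteMeasure μ] (A B : Set E)
    (hA : MeasurableSet A) (hB : MeasurableSet B) (hcov : μ (A ∪ B)ᶜ = 0)
    (bp bm : E → E) (hbp : Measurable bp) (hbm : Measurable bm)
    (hip : Set.InjOn bp A) (him : Set.InjOn bm A)
    (hBp : μ.restrict B = (2 : ℝ≥0∞) • (μ.restrict A).map bp)
    (hBm : μ.restrict B = (2 : ℝ≥0∞) • (μ.restrict A).map bm)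
    (T₂ T₃ : E → E) (hT₂ : Measurable T₂) (hT₂μ : μ.map T₂ = μ)
    (hΓ : ∀ᵐ x ∂μ, IsApexTriple A bp bm (x, T₂ x, T₃ x)) :
    μ A = 0 := by
  refine parity_no_monge μ A B hA hB hcov bp bm hbp hbm hip him hBp hBm T₂ hT₂ hT₂μ ?_ ?_
  · filter_upwards [hΓ] with x hx hxA
    rcases hx with ⟨-, h, -⟩ | ⟨-, h, -⟩ | ⟨-, h, -⟩
    · exact h
    · exact absurd hxA h
    · exact absurd hxA h
  · filter_upwards [hΓ] with x hx _ hTx
    rcases hx with ⟨-, h, -⟩ | ⟨-, -, -, h⟩ | ⟨-, -, h, -⟩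
    · exact absurd hTx h
    · rcases h with ⟨h, -⟩ | ⟨h, -⟩
      · exact Or.inl h
      · exact Or.inr h
    · exact absurd hTx h

/-- **Parity theorem, triple form (third coordinate).** -/
theorem parity_no_monge_triple' (μ : Measure E) [IsFiniteMeasure μ] (A B : Set E)
    (hA : MeasurableSet A) (hB : MeasurableSet B) (hcov : μ (A ∪ B)ᶜ = 0)
    (bp bm : E → E) (hbp : Measurable bp) (hbm : Measurable bm)
    (hip : Set.InjOn bp A) (him : Set.InjOn bm A)
    (hBp : μ.restrict B = (2 : ℝ≥0∞) • (μ.restrict A).map bp)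
    (hBm : μ.restrict B = (2 : ℝ≥0∞) • (μ.restrict A).map bm)
    (T₂ T₃ : E → E) (hT₃ : Measurable T₃) (hT₃μ : μ.map T₃ = μ)
    (hΓ : ∀ᵐ x ∂μ, IsApexTriple A bp bm (x, T₂ x, T₃ x)) :
    μ A = 0 := by
  refine parity_no_monge μ A B hA hB hcov bp bm hbp hbm hip him hBp hBm T₃ hT₃ hT₃μ ?_ ?_
  · filter_upwards [hΓ] with x hx hxA
    rcases hx with ⟨-, -, h, -⟩ | ⟨-, h, -⟩ | ⟨-, h, -⟩
    · exact h
    · exact absurd hxA h
    · exact absurd hxA h
  · filter_upwards [hΓ] with x hx _ hTx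
    rcases hx with ⟨-, -, h, -⟩ | ⟨-, -, h, -⟩ | ⟨-, -, -, h⟩
    · exact absurd hTx h
    · exact absurd hTx h
    · rcases h with ⟨h, -⟩ | ⟨h, -⟩
      · exact Or.inl h
      · exact Or.inr h

end Parity

end Crest.Agent.Helper91.OT3
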